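import Vale.Agent.P181.H72.StepB
import Vale.Agent.P181.R2.H940.NTree

/-!
P181, weighted tail slopes: the weight vector of the form of a highest weight vector, the known
tail theorem, and the passage to multiplicities.
-/

set_option autoImplicit false

open scoped TensorProduct

namespace Vale.Agent.P181.H72

open MvPolynomial Vale.Agent.P181 Vale.Agent.P181.H536 Vale.Agent.P181.H280
  Vale.Agent.P181.H780 Vale.Agent.P181.TN Vale.Agent.P181.TW

variable {n : ℕ}

/-- the diagonal matrix of a scaling -/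
def dmat (c : Fin n → ℂ) : Matrix (Fin (n + 2)) (Fin (n + 2)) ℂ :=
  Matrix.diagonal (Fin.cons 1 (Fin.cons 1 c))

lemma dmat_borel {c : Fin n → ℂ} (hc : ∀ i, c i ≠ 0) : IsBorel (dmat c) := by
  constructor
  · intro i j hij
    exact Matrix.diagonal_apply_ne _ (ne_of_gt hij)
  · intro i
    rw [dmat, Matrix.diagonal_apply_eq]
    refine Fin.cases ?_ (fun i => ?_) i
    · exact one_ne_zero
    · refine Fin.cases ?_ (fun i => ?_) i
      · exact one_ne_zero
      · exact hc i

lemma dmat_prod (c : Fin n → ℂ) (lam : Fin (n + 2) → ℕ) :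
    ∏ i, dmat c i i ^ lam i = ∏ i : Fin n, c i ^ lam i.succ.succ := by
  have h : ∀ i, dmat c i i = (Fin.cons 1 (Fin.cons 1 c) : Fin (n + 2) → ℂ) i :=
    fun i => Matrix.diagonal_apply_eq _ _
  simp only [h]
  rw [Fin.prod_univ_succ, Fin.prod_univ_succ]
  simp only [Fin.cons_zero, Fin.cons_succ, one_pow, one_mul]

lemma evL_scw (c : Fin n → ℂ) (i : Fin (n + 2)) : evL (n + 2) (scw c (X i)) =
    fun v => (Matrix.toLin' (dmat c) v) i := by
  funext v
  rw [Matrix.toLin'_apply, dmat, Matrix.mulVec_diagonal]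
  refine Fin.cases ?_ (fun i => ?_) i
  · rw [scw_zero, evL_X, Fin.cons_zero, one_mul]
  · refine Fin.cases ?_ (fun i => ?_) i
    · change evL (n + 2) (scw c (X 1)) v = _
      rw [scw_one, evL_X]
      change v 1 = 1 * v 1
      rw [one_mul]
    · rw [scw_succ, map_smul, evL_X]
      rfl

/-- the weight vector of the form of a highest weight vector -/
theorem formOf_scw {a b : ℕ} (lam : Fin (n + 2) → ℕ)
    (l : (Fin a → Fin b → (Fin (n + 2) → ℂ)) →₀ ℂ)
    (hx : elOf l ∈ hwSpace lam (plethAct a b (n + 2))) :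
    HomW b (fun i : Fin n => lam i.succ.succ) (formOf l) := by
  intro c hc P hP
  let Φ : MultilinearMap ℂ (fun _ : Fin a => MvPolynomial (Fin (n + 2)) ℂ) ℂ :=
    comp (formOf l) (scw c) - (∏ i : Fin n, c i ^ lam i.succ.succ) • formOf l
  have hΦ : Φ P = 0 := by
    apply multilinear_zero_of_span Φ
      (Set.range (fun c : Fin b → Fin (n + 2) => ∏ j, (X (c j) : MvPolynomial (Fin (n + 2)) ℂ)))
    · intro w hw
      choose e he using hw
      have hw' : w = fun i => ∏ j, X (e i j) := by
        funext i; exact (he i).symm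
      have h1 := formOf_act lam l hx (dmat c) e (fun i j => scw c (X (e i j)))
        (dmat_borel hc) (fun i j => evL_scw c (e i j))
      rw [dmat_prod] at h1
      rw [hw']
      have h2 : Φ (fun i => ∏ j, X (e i j)) =
          formOf l (fun i => scw c (∏ j, X (e i j))) -
            (∏ i : Fin n, c i ^ lam i.succ.succ) * formOf l (fun i => ∏ j, X (e i j)) := rfl
      rw [h2]
      simp only [map_prod]
      rw [h1, sub_self]
    · intro i
      exact span_pow_eq _ _ (hP i)
  have h1 : Φ P = formOf l (fun i => scw c (P i)) -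
      (∏ i : Fin n, c i ^ lam i.succ.succ) * formOf l P := rfl
  rw [h1, sub_eq_zero] at hΦ
  exact hΦ

/-- The known tail theorem, for weight vectors. -/
theorem treeW {n N a b : ℕ} {w : Fin n → ℕ} (hN : 1 ≤ N) (ht : ∑ i, w i + N ≤ b)
    (ha : a ≤ N + 1) : KW n a b w := fun F hs hI hH hK =>
  TN.tree hN ht ha F hs hI hH.hom hK

theorem zeroW (n b : ℕ) (w : Fin n → ℕ) : KW n 0 b w := by
  intro F _ _ _ hK P _
  have h1 := hK (Multiset.replicate b (X 0)) (Multiset.card_replicate _ _) (by
    intro x hx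
    rw [Multiset.eq_of_mem_replicate hx]
    exact X_mem_linS _)
  rw [← h1]
  congr 1
  exact Subsingleton.elim _ _

/-- Injectivity on highest weight vectors. -/
theorem injOn_of_KW {n a b : ℕ} (lam : Fin (n + 2) → ℕ)
    (hK : KW n a b (fun i : Fin n => lam i.succ.succ)) (x : Pleth a b (n + 2))
    (hx : x ∈ hwSpace lam (plethAct a b (n + 2)))
    (h0 : foulkesHowe a b (Fin (n + 2) → ℂ) x = 0) : x = 0 := by
  obtain ⟨l, rfl⟩ := exists_elOf x
  apply elOf_eq_zero
  refine hK (formOf l) (formOf_symm l) ?_ (formOf_scw lam l hx) (isK_formOf l h0)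
  intro z hz P hP
  exact formOf_shear (n := n) lam l hx (sh n z) (isShear_sh hz) P hP

theorem plethMult_of_KW {n a b : ℕ} (lam : Fin (n + 2) → ℕ)
    (hK : KW n a b (fun i : Fin n => lam i.succ.succ)) :
    plethMult a b (n + 2) lam ≤ plethMult b a (n + 2) lam :=
  finrank_le_of_inj (foulkesHowe a b (Fin (n + 2) → ℂ)) _ _
    (fun x hx => foulkesHowe_hwSpace lam x hx)
    (fun x hx h0 => injOn_of_KW lam hK x hx h0)

end Vale.Agent.P181.H72
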