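import Vale.Agent.P181.H72.WCurry

/-!
P181, weighted tail slopes: the step with many light boxes.
-/

set_option autoImplicit false

open MvPolynomial

namespace Vale.Agent.P181.H72

open Vale.Agent.P181 Vale.Agent.P181.H536 Vale.Agent.P181.H280 Vale.Agent.P181.TN
  Vale.Agent.P181.TW Vale.Agent.P181.R2.H866

variable {n : ℕ}

/-- The lines `X 0 + x X 1 + z`, `z` in the span of the variables outside `L`. -/
def Ch (L : Finset (Fin n)) (ξ : Sn n) : Prop := ∃ x : ℂ, ∃ z ∈ ZS Lᶜ, ξ = ln n x + z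

lemma Ch.mem {L : Finset (Fin n)} {ξ : Sn n} (h : Ch L ξ) : ξ ∈ UL L := by
  obtain ⟨x, z, hz, rfl⟩ := h
  exact (UL L).add_mem (ln_mem_UL L x) (ZS_le_UL L hz)

lemma Ch.mem' {L : Finset (Fin n)} {ξ : Sn n} (h : Ch L ξ) : ξ ∈ linS (n + 2) := UL_le L h.mem

/-- The form does not depend on the light part of a common factor. -/
def Q2 (L : Finset (Fin n)) (b : ℕ) {a : ℕ} (F : Fm n a) : Prop :=
  ∀ ξ, Ch L ξ → ∀ z ∈ ZS L, ∀ j, 1 ≤ j → ∀ g : Fin a → Sn n, Dg b g → Dev z j ξ F g = 0

lemma Q2.eq {L : Finset (Fin n)} {b a : ℕ} {F : Fm n a} (h : Q2 L b F) {ξ : Sn n} (hξ : Ch L ξ)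
    {z : Sn n} (hz : z ∈ ZS L) {g : Fin a → Sn n} (hg : Dg b g) :
    F (fun i => (ξ + z) * g i) = F (fun i => ξ * g i) := by
  have h1 := gen z ξ F g 1
  rw [one_smul] at h1
  rw [h1, Finset.sum_range_succ']
  rw [Finset.sum_eq_zero (fun k _ => by rw [h ξ hξ z hz (k + 1) (by omega) g hg, mul_zero])]
  rw [zero_add, pow_zero, one_mul]
  have h2 := gen z ξ F g 0
  rw [zero_smul, add_zero] at h2
  rw [h2, Finset.sum_range_succ']
  rw [Finset.sum_eq_zero (fun k _ => by rw [zero_pow (by omega), zero_mul])]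
  rw [zero_add, pow_zero, one_mul]

lemma q2_of {L : Finset (Fin n)} {b a : ℕ} {F : Fm n a}
    (hQ : ∀ (x : ℂ) (c : Fin n → ℂ) (h : Fin a → Sn n), Dg b h →
      F (fun j => (ln n x + ∑ i, c i • X i.succ.succ) * h j) =
        F (fun j => (ln n x + ∑ i, (if i ∈ L then 0 else c i) • X i.succ.succ) * h j)) :
    Q2 L b F := by
  classical
  rintro ξ ⟨x, z', hz', rfl⟩ z hz j hj g hg
  obtain ⟨c, hc, rfl⟩ := ZS_exists hz'
  obtain ⟨d, hd, rfl⟩ := ZS_exists hz
  by_cases hja : j ≤ a
  · have h1 : ∀ t : ℂ, ∑ k ∈ Finset.range (a + 1), t ^ k *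
        (if k = 0 then 0 else Dev (∑ i, d i • (X i.succ.succ : Sn n)) k
          (ln n x + ∑ i, c i • (X i.succ.succ : Sn n)) F g) = 0 := by
      intro t
      have e1 := gen (∑ i, d i • (X i.succ.succ : Sn n))
        (ln n x + ∑ i, c i • (X i.succ.succ : Sn n)) F g t
      have e0 := gen (∑ i, d i • (X i.succ.succ : Sn n))
        (ln n x + ∑ i, c i • (X i.succ.succ : Sn n)) F g 0
      have e2 : (fun i => (ln n x + ∑ i, c i • (X i.succ.succ : Sn n) +
          t • ∑ i, d i • (X i.succ.succ : Sn n)) * g i) =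
          fun i => (ln n x + ∑ i, (c i + t * d i) • (X i.succ.succ : Sn n)) * g i := by
        funext i
        rw [Finset.smul_sum, add_assoc, ← Finset.sum_add_distrib]
        congr 2
        exact Finset.sum_congr rfl fun i _ => by rw [smul_smul, add_smul]
      have e3 : (fun i => (ln n x + ∑ i, (if i ∈ L then 0 else c i + t * d i) •
          (X i.succ.succ : Sn n)) * g i) =
          fun i => (ln n x + ∑ i, c i • (X i.succ.succ : Sn n)) * g i := by
        funext i
        congr 2
        apply Finset.sum_congr rfl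
        intro i _
        by_cases hi : i ∈ L
        · rw [if_pos hi, hc i (fun h => (Finset.mem_compl.1 h) hi)]
        · rw [if_neg hi, hd i hi, mul_zero, add_zero]
      rw [e2, hQ x _ g hg, e3] at e1
      rw [zero_smul, add_zero] at e0
      rw [e0] at e1
      rw [Finset.sum_range_succ'] at e1 ⊢
      rw [Finset.sum_range_succ'] at e1
      simp only [pow_zero, if_true, mul_zero, add_zero]
      have e4 : ∑ k ∈ Finset.range a, (0 : ℂ) ^ (k + 1) *
          Dev (∑ i, d i • (X i.succ.succ : Sn n)) (k + 1)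
            (ln n x + ∑ i, c i • (X i.succ.succ : Sn n)) F g = 0 := by
        apply Finset.sum_eq_zero
        intro k _
        rw [zero_pow (by omega), zero_mul]
      rw [e4, pow_zero, pow_zero, zero_add, one_mul] at e1
      have e5 : ∑ k ∈ Finset.range a, t ^ (k + 1) *
          Dev (∑ i, d i • (X i.succ.succ : Sn n)) (k + 1)
            (ln n x + ∑ i, c i • (X i.succ.succ : Sn n)) F g = 0 := by
        linear_combination -e1
      rw [← e5]
      apply Finset.sum_congr rfl
      intro k _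
      rw [if_neg (by omega : ¬ k + 1 = 0)]
    have h2 := coeff_zero_of_sum h1 (j := j) (by omega)
    rwa [if_neg (by omega : ¬ j = 0)] at h2
  · exact Dev_of_lt _ (by omega) _ _ _

/-- the pencils used in the light direction -/
lemma ch_lin {L : Finset (Fin n)} {ξ : Sn n} (hξ : Ch L ξ) {q : Sn n}
    (hq : ∃ β : ℂ, ∃ z ∈ ZS Lᶜ, q = β • X 1 + z) (x : ℂ) : Ch L (lin ξ q x) := by
  obtain ⟨y, z, hz, rfl⟩ := hξ
  obtain ⟨β, z', hz', rfl⟩ := hq
  refine ⟨y + x * β, z + x • z', (ZS Lᶜ).add_mem hz ((ZS Lᶜ).smul_mem _ hz'), ?_⟩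
  rw [lin, ln, ln, smul_add, smul_smul, add_smul]
  abel

/-- heavy exponents in the light variables -/
lemma heavy_isK {L : Finset (Fin n)} {m b κ : ℕ} {F : Fm n (m + 1)} (hQ : Q2 L b F)
    (hκ : m + 1 ≤ κ) (hκb : κ ≤ b + 1) {w : Sn n} (hw : w ∈ ZS L ^ κ) {h : Sn n}
    (hh : h ∈ linS (n + 2) ^ (b + 1 - κ)) :
    IsK (linS (n + 2)) (b + 1) (F.curryLeft (w * h)) := by
  have hD : ∀ ξ, Ch L ξ → ∀ z ∈ ZS L, ∀ j, ∀ g : Fin m → Sn n, Dg b g →
      Dev z j ξ (F.curryLeft (w * h)) g = 0 := by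
    rintro ξ hξ z hz j g hg
    have h1 := heavyN (s := 0) (p := ξ) (q := X 1) (F := F) hξ.mem' (X_mem_linS _)
      ((ZS_le L).trans ZZ_le) (b := b) (fun z hz j hj x g hg =>
        hQ _ (ch_lin hξ ⟨1, 0, Submodule.zero_mem _, by rw [one_smul, add_zero]⟩ x) z hz j hj g hg)
      hκ hκb hw hh hz
    have h2 := h1 j (Nat.zero_le _) 0 g hg
    rwa [lin, zero_smul, add_zero] at h2
  apply isK_of_chart
  intro x z hz
  obtain ⟨z₁, hz₁, z₂, hz₂, he⟩ := Submodule.mem_sup.1 (ZZ_le_sup L (hz 0))
  have h1 : (fun _ : Fin m => ∏ j, (ln n (x j) + z j)) =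
      fun _ : Fin m => ((ln n (x 0) + z₁) + (1 : ℂ) • z₂) *
        ∏ j : Fin b, (ln n (x j.succ) + z j.succ) := by
    funext _
    rw [Fin.prod_univ_succ, one_smul, ← he]
    congr 1
    abel
  rw [h1, gen]
  apply Finset.sum_eq_zero
  intro k _
  rw [hD _ ⟨x 0, z₁, hz₁, rfl⟩ z₂ hz₂ k _ ?_, mul_zero]
  intro _
  exact prod_line_mem _ _ (fun j => hz j.succ)

/-- the light step in the light variables -/
lemma light_q2 {L : Finset (Fin n)} {m b κ : ℕ} {F : Fm n (m + 1)} (hQ : Q2 L b F)
    (hκb : κ ≤ b) (hmb : m + κ ≤ b + 1)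
    (hT : ∀ j, κ < j → j ≤ b + 1 → ∀ w ∈ ZS L ^ j, ∀ A ∈ UL L ^ (b + 1 - j),
      Van (b + 1) (F.curryLeft (w * A)))
    {w : Sn n} (hw : w ∈ ZS L ^ κ) {A : Sn n} (hA : A ∈ UL L ^ (b + 1 - κ)) :
    Q2 L b (F.curryLeft (w * A)) := by
  intro ξ hξ z hz j hj g hg
  have hA' := pow_le_span_pow _ _ hA
  clear hA
  rw [← DevL_apply]
  induction hA' using Submodule.span_induction with
  | mem A hA =>
    obtain ⟨u, hu, rfl⟩ := hA
    rw [DevL_apply]
    -- decompose `u`
    obtain ⟨α, q, hq, hue⟩ : ∃ α : ℂ, ∃ q : Sn n, (∃ β : ℂ, ∃ z ∈ ZS Lᶜ, q = β • X 1 + z) ∧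
        u = α • ξ + q := by
      obtain ⟨y, z₀, hz₀, rfl⟩ := hξ
      have hu' : u ∈ U2 n ⊔ ZS Lᶜ := hu
      obtain ⟨v, hv, z₁, hz₁, rfl⟩ := Submodule.mem_sup.1 hu'
      obtain ⟨α, β, rfl⟩ := Submodule.mem_span_pair.1 hv
      refine ⟨α, _, ⟨β - α * y, z₁ - α • z₀,
        (ZS Lᶜ).sub_mem hz₁ ((ZS Lᶜ).smul_mem _ hz₀), rfl⟩, ?_⟩
      rw [ln, smul_add, smul_add, smul_smul, sub_smul]
      abel
    have hqL : q ∈ UL L := by
      obtain ⟨β, z₁, hz₁, rfl⟩ := hq
      exact (UL L).add_mem ((UL L).smul_mem _ (U2_le_UL L (Submodule.subset_span (by simp))))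
        (ZS_le_UL L hz₁)
    have hspan : Submodule.span ℂ {ξ, q} ≤ UL L := by
      rw [Submodule.span_le]
      rintro _ (rfl | rfl)
      · exact hξ.mem
      · exact hqL
    have h1 := lightN (p := ξ) (q := q) (s := 1) (F := F) (k := κ) hξ.mem' (UL_le L hqL)
      ((ZS_le L).trans ZZ_le) hz
      (fun j hj x g hg => hQ _ (ch_lin hξ hq x) z hz j hj g hg)
      (fun j hj hjb w hw h hh g hg =>
        hT j hj hjb w hw h (pow_le_pow_left' hspan _ hh) g hg)
      (by omega) hκb hw (h := u ^ (b + 1 - κ)) (Submodule.pow_mem_pow _ (by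
        rw [hue]
        exact Submodule.mem_span_pair.2 ⟨α, 1, by rw [one_smul]⟩) _)
    have h2 := h1 j hj 0 g hg
    rwa [lin, zero_smul, add_zero] at h2
  | zero => rw [mul_zero, map_zero]
  | add u v _ _ hu hv => rw [mul_add, map_add, hu, hv, add_zero]
  | smul c u _ hu => rw [mul_smul_comm, map_smul, hu, smul_zero]

/-- light exponents: the kernel is automatic -/
lemma light_isK {L : Finset (Fin n)} {m b κ : ℕ} {w₀ : Fin n → ℕ} {F : Fm n (m + 1)}
    (hH : HomW (b + 1) w₀ F) (hκb : κ ≤ b + 1) (hκw : κ ≠ ∑ i ∈ L, w₀ i) {w : Sn n}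
    (hw : w ∈ ZS L ^ κ) {A : Sn n} (hA : A ∈ UL L ^ (b + 1 - κ))
    (hQ : Q2 L b (F.curryLeft (w * A))) :
    IsK (linS (n + 2)) (b + 1) (F.curryLeft (w * A)) := by
  classical
  apply isK_of_chart
  intro x z hz
  choose z₁ hz₁ z₂ hz₂ he using fun j => Submodule.mem_sup.1 (ZZ_le_sup L (hz j))
  have key : ∀ S : Finset (Fin (b + 1)),
      F.curryLeft (w * A) (fun _ => ∏ j, (ln n (x j) + z₁ j + if j ∈ S then 0 else z₂ j)) =
        F.curryLeft (w * A) (fun _ => ∏ j, (ln n (x j) + z j)) := by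
    intro S
    induction S using Finset.induction_on with
    | empty =>
      congr 1
      funext _
      apply Finset.prod_congr rfl
      intro j _
      rw [if_neg (Finset.notMem_empty _), ← he j]
      abel
    | insert i S hi ih =>
      rw [← ih]
      have h1 : ∀ T : Finset (Fin (b + 1)),
          (fun _ : Fin m => ∏ j, (ln n (x j) + z₁ j + if j ∈ T then 0 else z₂ j)) =
          fun _ : Fin m => (ln n (x i) + z₁ i + if i ∈ T then 0 else z₂ i) *
            ∏ j ∈ Finset.univ.erase i, (ln n (x j) + z₁ j + if j ∈ T then 0 else z₂ j) := by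
        intro T
        funext _
        exact (Finset.mul_prod_erase Finset.univ
          (fun j => ln n (x j) + z₁ j + if j ∈ T then 0 else z₂ j) (Finset.mem_univ i)).symm
      have h2 : ∏ j ∈ Finset.univ.erase i,
            (ln n (x j) + z₁ j + if j ∈ insert i S then 0 else z₂ j) =
          ∏ j ∈ Finset.univ.erase i, (ln n (x j) + z₁ j + if j ∈ S then 0 else z₂ j) := by
        apply Finset.prod_congr rfl
        intro j hj
        have hji := Finset.ne_of_mem_erase hj
        congr 1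
        by_cases hjS : j ∈ S
        · rw [if_pos hjS, if_pos (Finset.mem_insert_of_mem hjS)]
        · rw [if_neg hjS, if_neg (by
            rw [Finset.mem_insert, not_or]
            exact ⟨hji, hjS⟩)]
      rw [h1 (insert i S), h1 S, h2, if_pos (Finset.mem_insert_self _ _), if_neg hi, add_zero]
      symm
      apply hQ.eq ⟨x i, z₁ i, hz₁ i, rfl⟩ (hz₂ i)
      intro _
      have h3 := H240.prod_mem_pow_card (linS (n + 2)) (Finset.univ.erase i)
        (fun j => ln n (x j) + z₁ j + if j ∈ S then 0 else z₂ j) (fun j => by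
          rw [add_assoc]
          apply line_mem
          apply (ZZ n).add_mem (ZS_le _ (hz₁ j))
          split_ifs
          · exact (ZZ n).zero_mem
          · exact ZS_le _ (hz₂ j))
      rwa [Finset.card_erase_of_mem (Finset.mem_univ i), Finset.card_univ, Fintype.card_fin,
        Nat.add_sub_cancel] at h3
  rw [← key Finset.univ]
  set P : Fin m → Sn n := fun _ => ∏ j, (ln n (x j) + z₁ j + if j ∈ (Finset.univ :
    Finset (Fin (b + 1))) then 0 else z₂ j) with hP
  have hPU : ∀ i, P i ∈ UL L ^ (b + 1) := by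
    intro i
    have h3 := H240.prod_mem_pow_card (UL L) (Finset.univ : Finset (Fin (b + 1)))
      (fun j => ln n (x j) + z₁ j + if j ∈ (Finset.univ : Finset (Fin (b + 1))) then 0 else z₂ j)
      (fun j => by
        rw [if_pos (Finset.mem_univ j), add_zero]
        exact (UL L).add_mem (ln_mem_UL L _) (ZS_le_UL L (hz₁ j)))
    rwa [Finset.card_univ, Fintype.card_fin] at h3
  have hPD : Dg (b + 1) P := fun i => pow_le_pow_left' (UL_le L) _ (hPU i)
  have hwA : w * A ∈ linS (n + 2) ^ (b + 1) := by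
    have h1 : linS (n + 2) ^ (b + 1) = linS (n + 2) ^ κ * linS (n + 2) ^ (b + 1 - κ) := by
      rw [← pow_add]; congr 1; omega
    rw [h1]
    exact Submodule.mul_mem_mul (pow_le_pow_left' ((ZS_le L).trans ZZ_le) _ hw)
      (pow_le_pow_left' (UL_le L) _ hA)
  have h4 := curry_scw F hH hwA (c := cL L 2) (cL_ne L two_ne_zero) (e := 2 ^ κ) (by
    rw [map_mul, scw_cL_ZS_pow L 2 hw, scw_cL_UL_pow L 2 hA, smul_mul_assoc]) P hPD
  have h5 : (fun i => scw (cL L 2) (P i)) = P := by
    funext i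
    exact scw_cL_UL_pow L 2 (hPU i)
  rw [h5, prod_cL] at h4
  have h6 : ((2 : ℂ) ^ κ - 2 ^ (∑ i ∈ L, w₀ i)) * F.curryLeft (w * A) P = 0 := by
    rw [sub_mul, h4, sub_self]
  refine (mul_eq_zero.1 h6).resolve_left ?_
  intro h7
  rw [sub_eq_zero] at h7
  have h8 : (2 : ℕ) ^ κ = 2 ^ (∑ i ∈ L, w₀ i) := by exact_mod_cast h7
  exact hκw (Nat.pow_right_injective le_rfl h8)

/-- from the monomials to all products -/
lemma van_of_mono {L : Finset (Fin n)} {m B κ : ℕ} {F : Fm n (m + 1)} (hκ : κ ≤ B)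
    (h : ∀ r : Fin n → ℕ, ∑ i ∈ L, r i = κ → ∑ i, r i ≤ B → ∀ A ∈ U2 n ^ (B - ∑ i, r i),
      Van B (F.curryLeft (mz r * A)))
    {w : Sn n} (hw : w ∈ ZS L ^ κ) {A : Sn n} (hA : A ∈ UL L ^ (B - κ)) :
    Van B (F.curryLeft (w * A)) := by
  classical
  intro P hP
  have h1 : ∀ r₁ : Fin n → ℕ, (∀ i, i ∉ L → r₁ i = 0) → ∑ i, r₁ i = κ →
      F.curryLeft (mz r₁ * A) P = 0 := by
    intro r₁ hr₁ hs₁
    let W : Submodule ℂ (Sn n) :=
      LinearMap.ker ({ toFun := fun u => F.curryLeft (mz r₁ * u) P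
                       map_add' := fun x y => by rw [mul_add, map_add]; rfl
                       map_smul' := fun c x => by rw [mul_smul_comm, map_smul]; rfl } :
                         Sn n →ₗ[ℂ] ℂ)
    have h2 : UL L ^ (B - κ) ≤ W := by
      rw [UL]
      apply Vale.Agent.P181.R2.H940.sup_pow_le
      intro k hk
      rw [Submodule.mul_le]
      intro v hv A' hA'
      have hv' := ZS_pow_le Lᶜ k hv
      clear hv
      change F.curryLeft (mz r₁ * (v * A')) P = 0
      induction hv' using Submodule.span_induction with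
      | mem x hx =>
        obtain ⟨r₂, hr₂, hs₂, rfl⟩ := hx
        have e1 : mz r₁ * (mz r₂ * A') = mz (r₁ + r₂) * A' := by rw [mz_add, mul_assoc]
        have e2 : ∑ i ∈ L, (r₁ + r₂) i = κ := by
          simp only [Pi.add_apply]
          rw [Finset.sum_add_distrib]
          have e3 : ∑ i ∈ L, r₂ i = 0 := by
            apply Finset.sum_eq_zero
            intro i hi
            exact hr₂ i (fun h => (Finset.mem_compl.1 h) hi)
          have e4 : ∑ i ∈ L, r₁ i = ∑ i, r₁ i :=
            Finset.sum_subset (Finset.subset_univ _) (fun i _ hi => hr₁ i hi)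
          rw [e3, e4, hs₁, add_zero]
        have e5 : ∑ i, (r₁ + r₂) i = κ + k := by
          simp only [Pi.add_apply]
          rw [Finset.sum_add_distrib, hs₁, hs₂]
        rw [e1]
        apply h (r₁ + r₂) e2 (by omega) A' _ P hP
        have e6 : B - ∑ i, (r₁ + r₂) i = B - κ - k := by omega
        rwa [e6]
      | zero => rw [zero_mul, mul_zero, map_zero]; rfl
      | add x y _ _ hx hy => rw [add_mul, mul_add, map_add, add_apply, hx, hy, add_zero]
      | smul c x _ hx => rw [smul_mul_assoc, mul_smul_comm, map_smul, smul_apply, hx, smul_zero]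
    exact h2 hA
  have hw' := ZS_pow_le L κ hw
  clear hw
  induction hw' using Submodule.span_induction with
  | mem x hx =>
    obtain ⟨r₁, hr₁, hs₁, rfl⟩ := hx
    exact h1 r₁ hr₁ hs₁
  | zero => rw [zero_mul, map_zero]; rfl
  | add x y _ _ hx hy => rw [add_mul, map_add, add_apply, hx, hy, add_zero]
  | smul c x _ hx => rw [smul_mul_assoc, map_smul, smul_apply, hx, smul_zero]

/-- **Many light boxes.** If the total weight of the rows in `L` exceeds the number of slots, no
numerical condition is needed. -/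
theorem stepB {n m b : ℕ} (L : Finset (Fin n)) (w : Fin n → ℕ) (hmb : m ≤ b) (h2m : 2 * m ≤ b + 1)
    (F : Fm n (m + 1)) (hsy : IsSymm F) (hI : Inv (b + 1) F) (hH : HomW (b + 1) w F)
    (hL : m + 1 ≤ ∑ i ∈ L, w i)
    (hQ : ∀ (x : ℂ) (c : Fin n → ℂ) (h : Fin (m + 1) → Sn n), Dg b h →
      F (fun j => (ln n x + ∑ i, c i • X i.succ.succ) * h j) =
        F (fun j => (ln n x + ∑ i, (if i ∈ L then 0 else c i) • X i.succ.succ) * h j))
    (hK1 : ∀ w' : Fin n → ℕ, w' ≤ w → KW n m (b + 1) w') : Van (b + 1) F := by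
  classical
  have hQ2 : Q2 L b F := q2_of hQ
  set B := b + 1 with hB
  let O : ℕ → Prop := fun κ => ∀ r : Fin n → ℕ, ∑ i ∈ L, r i = κ → ∑ i, r i ≤ B →
    ∀ A ∈ U2 n ^ (B - ∑ i, r i), Van B (F.curryLeft (mz r * A))
  have step : ∀ κ, κ ≤ B → (∀ κ', κ < κ' → κ' ≤ B → O κ') → O κ := by
    intro κ hκ hO
    have hTop : ∀ j, κ < j → j ≤ B → ∀ w ∈ ZS L ^ j, ∀ A ∈ UL L ^ (B - j),
        Van B (F.curryLeft (w * A)) := fun j hj hjB w hw A hA =>
      van_of_mono hjB (hO j hj hjB) hw hA
    have inner : ∀ d ρ, ρ ≤ B → B - ρ ≤ d → ∀ r : Fin n → ℕ, ∑ i ∈ L, r i = κ → ∑ i, r i = ρ →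
        ∀ A ∈ U2 n ^ (B - ∑ i, r i), Van B (F.curryLeft (mz r * A)) := by
      intro d
      induction d with
      | zero =>
        intro ρ hρ hd r hrL hr A hA
        by_cases hrw : r ≤ w
        swap
        · exact curry_zeroW (by omega) hrw F hH hA
        have hK : IsK (linS (n + 2)) B (F.curryLeft (mz r * A)) := by
          rw [mz_split L r, mul_assoc]
          have h1 : mz (rs Lᶜ r) * A ∈ UL L ^ (B - κ) := by
            have e1 : UL L ^ (B - κ) = UL L ^ (∑ i ∈ Lᶜ, r i) * UL L ^ (B - ∑ i, r i) := by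
              rw [← pow_add]
              congr 1
              have := sum_split L r
              omega
            rw [e1]
            exact Submodule.mul_mem_mul (pow_le_pow_left' (ZS_le_UL L) _ (mz_rs_mem Lᶜ r))
              (pow_le_pow_left' (U2_le_UL L) _ hA)
          have h2 : mz (rs L r) ∈ ZS L ^ κ := hrL ▸ mz_rs_mem L r
          by_cases hκm : m + 1 ≤ κ
          · exact heavy_isK hQ2 hκm hκ h2 (pow_le_pow_left' (UL_le L) _ h1)
          · exact light_isK hH hκ (by omega) h2 h1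
              (light_q2 hQ2 (by omega) (by omega) hTop h2 h1)
        refine hK1 (w - r) tsub_le_self _ (hsy.curryLeft _) ?_ (curry_homW (by omega) hrw F hH hA) hK
        apply curry_invW (by omega) F hI _ hA
        intro r' hr'0 hr' A' hA'
        exfalso
        apply hr'0
        have h3 : ∑ i, (r + r') i = ∑ i, r i + ∑ i, r' i := by
          simp only [Pi.add_apply]
          rw [Finset.sum_add_distrib]
        have h4 : ∑ i, r' i = 0 := by omega
        funext i
        exact (Finset.sum_eq_zero_iff.1 h4) i (Finset.mem_univ i)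
      | succ d ih =>
        intro ρ hρ hd r hrL hr A hA
        by_cases hrw : r ≤ w
        swap
        · exact curry_zeroW (by omega) hrw F hH hA
        have hK : IsK (linS (n + 2)) B (F.curryLeft (mz r * A)) := by
          rw [mz_split L r, mul_assoc]
          have h1 : mz (rs Lᶜ r) * A ∈ UL L ^ (B - κ) := by
            have e1 : UL L ^ (B - κ) = UL L ^ (∑ i ∈ Lᶜ, r i) * UL L ^ (B - ∑ i, r i) := by
              rw [← pow_add]
              congr 1
              have := sum_split L r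
              omega
            rw [e1]
            exact Submodule.mul_mem_mul (pow_le_pow_left' (ZS_le_UL L) _ (mz_rs_mem Lᶜ r))
              (pow_le_pow_left' (U2_le_UL L) _ hA)
          have h2 : mz (rs L r) ∈ ZS L ^ κ := hrL ▸ mz_rs_mem L r
          by_cases hκm : m + 1 ≤ κ
          · exact heavy_isK hQ2 hκm hκ h2 (pow_le_pow_left' (UL_le L) _ h1)
          · exact light_isK hH hκ (by omega) h2 h1
              (light_q2 hQ2 (by omega) (by omega) hTop h2 h1)
        refine hK1 (w - r) tsub_le_self _ (hsy.curryLeft _) ?_ (curry_homW (by omega) hrw F hH hA) hK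
        apply curry_invW (by omega) F hI _ hA
        intro r' hr'0 hr' A' hA'
        have h3 : ∑ i, (r + r') i = ∑ i, r i + ∑ i, r' i := by
          simp only [Pi.add_apply]
          rw [Finset.sum_add_distrib]
        have h3L : ∑ i ∈ L, (r + r') i = ∑ i ∈ L, r i + ∑ i ∈ L, r' i := by
          simp only [Pi.add_apply]
          rw [Finset.sum_add_distrib]
        have h4 : 0 < ∑ i, r' i := by
          rw [Nat.pos_iff_ne_zero]
          intro h4
          apply hr'0
          funext i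
          exact (Finset.sum_eq_zero_iff.1 h4) i (Finset.mem_univ i)
        have h5 := sum_split L (r + r')
        rcases Nat.eq_zero_or_pos (∑ i ∈ L, r' i) with h6 | h6
        · exact ih (∑ i, (r + r') i) hr' (by omega) (r + r') (by omega) rfl A' hA'
        · exact hO (∑ i ∈ L, (r + r') i) (by omega) (by omega) (r + r') rfl hr' A' hA'
    intro r hrL hr A hA
    exact inner B (∑ i, r i) hr (by omega) r hrL rfl A hA
  have all : ∀ d κ, κ ≤ B → B - κ ≤ d → O κ := by
    intro d
    induction d with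
    | zero =>
      intro κ hκ hd
      exact step κ hκ fun κ' h1 h2 => absurd h2 (by omega)
    | succ d ih =>
      intro κ hκ hd
      exact step κ hκ fun κ' h1 h2 => ih κ' h2 (by omega)
  intro P hP
  let W : Submodule ℂ (Sn n) :=
    LinearMap.ker ({ toFun := fun u => F.curryLeft u (fun i => P i.succ)
                     map_add' := fun x y => by rw [map_add]; rfl
                     map_smul' := fun c x => by rw [map_smul]; rfl } : Sn n →ₗ[ℂ] ℂ)
  have h2 : linS (n + 2) ^ B ≤ W := by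
    apply linS_pow_le
    intro k hk v hv A hA
    change F.curryLeft (v * A) (fun i => P i.succ) = 0
    apply van_curry_of_mz F A _ hv (fun i => P i.succ) (fun i => hP i.succ)
    intro r hr
    have h3 := sum_split L r
    exact all B (∑ i ∈ L, r i) (by omega) (by omega) r rfl (by omega) A (by rwa [hr])
  have h3 : F.curryLeft (P 0) (fun i => P i.succ) = 0 := h2 (hP 0)
  rw [MultilinearMap.curryLeft_apply] at h3
  rw [← h3]
  congr 1
  funext i
  refine Fin.cases ?_ (fun i => ?_) i
  · rfl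
  · rfl

end Vale.Agent.P181.H72
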