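import Vale.Agent.P181.H72.WL

/-!
P181, weighted tail slopes: the curried forms with multi-index exponents.
-/

set_option autoImplicit false

open MvPolynomial

namespace Vale.Agent.P181.H72

open Vale.Agent.P181 Vale.Agent.P181.H536 Vale.Agent.P181.H280 Vale.Agent.P181.TN
  Vale.Agent.P181.TW Vale.Agent.P181.R2.H866

variable {n : ℕ}

lemma mzA_mem {b : ℕ} {r : Fin n → ℕ} (hr : ∑ i, r i ≤ b) {A : Sn n}
    (hA : A ∈ U2 n ^ (b - ∑ i, r i)) : mz r * A ∈ linS (n + 2) ^ b :=
  wA_mem hr (mz_mem r) hA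

lemma cons_Dg {m b : ℕ} {u : Sn n} (hu : u ∈ linS (n + 2) ^ b) {P : Fin m → Sn n} (hP : Dg b P) :
    Dg b (Fin.cons u P : Fin (m + 1) → Sn n) := by
  intro i
  refine Fin.cases ?_ (fun j => ?_) i
  · simpa using hu
  · simpa using hP j

/-- the scaling identity of the curried form, for a first argument which is scaled -/
lemma curry_scw {m b : ℕ} {w : Fin n → ℕ} (F : Fm n (m + 1)) (hH : HomW b w F) {u : Sn n}
    (hu : u ∈ linS (n + 2) ^ b) {c : Fin n → ℂ} (hc : ∀ i, c i ≠ 0) {e : ℂ}
    (hue : scw c u = e • u) (P : Fin m → Sn n) (hP : Dg b P) :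
    e * F.curryLeft u (fun i => scw c (P i)) = (∏ i, c i ^ w i) * F.curryLeft u P := by
  have h1 := hH c hc (Fin.cons u P) (cons_Dg hu hP)
  have h2 : (fun i : Fin (m + 1) => scw c ((Fin.cons u P : Fin (m + 1) → Sn n) i)) =
      Fin.cons (e • u) (fun i => scw c (P i)) := by
    funext i
    refine Fin.cases ?_ (fun j => ?_) i
    · simp only [Fin.cons_zero]
      exact hue
    · simp only [Fin.cons_succ]
  rw [h2] at h1
  have h3 := (F.curryLeft).map_smul e u
  have h4 : F (Fin.cons (e • u) (fun i => scw c (P i))) =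
      e * F.curryLeft u (fun i => scw c (P i)) := by
    rw [← MultilinearMap.curryLeft_apply, h3, smul_apply, smul_eq_mul]
  rw [h4] at h1
  rw [h1, MultilinearMap.curryLeft_apply]

/-- weight of the curried form -/
theorem curry_homW {m b : ℕ} {w r : Fin n → ℕ} (hr : ∑ i, r i ≤ b) (hrw : r ≤ w)
    (F : Fm n (m + 1)) (hH : HomW b w F) {A : Sn n} (hA : A ∈ U2 n ^ (b - ∑ i, r i)) :
    HomW b (w - r) (F.curryLeft (mz r * A)) := by
  intro c hc P hP
  have h1 := curry_scw F hH (mzA_mem hr hA) hc (e := ∏ i, c i ^ r i) (by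
    rw [map_mul, scw_mz, scw_U2 c hA, smul_mul_assoc]) P hP
  have h2 : ∏ i, c i ^ w i = (∏ i, c i ^ r i) * ∏ i, c i ^ (w - r) i := by
    rw [← Finset.prod_mul_distrib]
    apply Finset.prod_congr rfl
    intro i _
    rw [← pow_add, Pi.sub_apply, Nat.add_sub_cancel' (hrw i)]
  have h3 : ∏ i, c i ^ r i ≠ 0 := Finset.prod_ne_zero_iff.2 fun i _ => pow_ne_zero _ (hc i)
  rw [h2, mul_assoc] at h1
  exact mul_left_cancel₀ h3 h1

/-- the action of one scaling on one form is polynomial -/
lemma scw_poly (i0 : Fin n) (P : Sn n) :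
    ∃ p : Polynomial (Sn n), ∀ t : ℂ, p.eval (algebraMap ℂ (Sn n) t) =
      scw (fun i => if i = i0 then t else 1) P := by
  let g : Sn n →ₐ[ℂ] Polynomial (Sn n) := aeval (Fin.cons (Polynomial.C (X 0))
    (Fin.cons (Polynomial.C (X 1)) (fun i : Fin n =>
      if i = i0 then Polynomial.C (X i.succ.succ) * Polynomial.X else
        Polynomial.C (X i.succ.succ))))
  refine ⟨g P, fun t => ?_⟩
  have h : ((Polynomial.aeval (algebraMap ℂ (Sn n) t) :
      Polynomial (Sn n) →ₐ[Sn n] Sn n).restrictScalars ℂ).comp g =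
        scw (fun i => if i = i0 then t else 1) := by
    apply MvPolynomial.algHom_ext
    intro i
    rw [AlgHom.comp_apply, aeval_X, AlgHom.restrictScalars_apply]
    refine Fin.cases ?_ (fun i => ?_) i
    · rw [Fin.cons_zero, Polynomial.aeval_C, scw_zero]
      rfl
    · refine Fin.cases ?_ (fun i => ?_) i
      · rw [Fin.cons_succ, Fin.cons_zero, Polynomial.aeval_C]
        exact (scw_one _).symm
      · rw [Fin.cons_succ, Fin.cons_succ, scw_succ]
        by_cases hi : i = i0
        · rw [if_pos hi, if_pos hi, map_mul, Polynomial.aeval_C, Polynomial.aeval_X,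
            Algebra.smul_def, mul_comm]
          rfl
        · rw [if_neg hi, if_neg hi, Polynomial.aeval_C, one_smul]
          rfl
  have h2 := congrArg (fun g : Sn n →ₐ[ℂ] Sn n => g P) h
  simp only [AlgHom.comp_apply, AlgHom.restrictScalars_apply] at h2
  rw [← h2, Polynomial.coe_aeval_eq_eval]

/-- the curried form vanishes if its exponent is not below the weight -/
theorem curry_zeroW {m b : ℕ} {w r : Fin n → ℕ} (hr : ∑ i, r i ≤ b) (hrw : ¬ r ≤ w)
    (F : Fm n (m + 1)) (hH : HomW b w F) {A : Sn n} (hA : A ∈ U2 n ^ (b - ∑ i, r i)) :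
    Van b (F.curryLeft (mz r * A)) := by
  classical
  obtain ⟨i0, hi0⟩ : ∃ i, w i < r i := by
    by_contra hcon
    push Not at hcon
    exact hrw hcon
  intro P hP
  choose R hR using fun i => scw_poly i0 (P i)
  obtain ⟨q, hq⟩ := poly_exists (F.curryLeft (mz r * A)) R
  have h1 : Polynomial.X ^ (r i0 - w i0) * q = Polynomial.C (F.curryLeft (mz r * A) P) := by
    apply Polynomial.eq_of_infinite_eval_eq
    apply Set.Infinite.mono (s := ({0} : Set ℂ)ᶜ)
    · intro c hc
      have hc0 : c ≠ 0 := hc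
      rw [Set.mem_ofPred_eq, Polynomial.eval_mul, Polynomial.eval_pow, Polynomial.eval_X,
        Polynomial.eval_C, hq]
      simp only [hR]
      have h2 := curry_scw F hH (mzA_mem hr hA) (c := fun i => if i = i0 then c else 1)
        (fun i => by
          by_cases hi : i = i0
          · simp only [if_pos hi]; exact hc0
          · simp only [if_neg hi]; exact one_ne_zero)
        (e := ∏ i, (if i = i0 then c else 1) ^ r i) (by
          rw [map_mul, scw_mz, scw_U2 _ hA, smul_mul_assoc]) P hP
      have h3 : ∀ v : Fin n → ℕ, ∏ i, (if i = i0 then c else 1) ^ v i = c ^ v i0 := by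
        intro v
        rw [Finset.prod_eq_single i0]
        · rw [if_pos rfl]
        · intro i _ hi
          rw [if_neg hi, one_pow]
        · intro h
          exact absurd (Finset.mem_univ _) h
      rw [h3 r, h3 w] at h2
      have h4 : c ^ r i0 = c ^ w i0 * c ^ (r i0 - w i0) := by
        rw [← pow_add, Nat.add_sub_cancel' hi0.le]
      rw [h4, mul_assoc] at h2
      exact mul_left_cancel₀ (pow_ne_zero _ hc0) h2
    · exact (Set.finite_singleton (0 : ℂ)).infinite_compl
  have h2 := congrArg (Polynomial.eval (0 : ℂ)) h1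
  rw [Polynomial.eval_mul, Polynomial.eval_pow, Polynomial.eval_X, Polynomial.eval_C,
    zero_pow (by omega), zero_mul] at h2
  exact h2.symm

/-- invariance of the curried form, if all larger exponents vanish -/
theorem curry_invW {m b : ℕ} {r : Fin n → ℕ} (hr : ∑ i, r i ≤ b) (F : Fm n (m + 1))
    (hI : Inv b F)
    (hT : ∀ r' : Fin n → ℕ, r' ≠ 0 → ∑ i, (r + r') i ≤ b →
      ∀ A ∈ U2 n ^ (b - ∑ i, (r + r') i), Van b (F.curryLeft (mz (r + r') * A)))
    {A : Sn n} (hA : A ∈ U2 n ^ (b - ∑ i, r i)) :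
    Inv b (F.curryLeft (mz r * A)) := by
  intro z hz P hP
  have hP' : Dg b (fun i => sh n z (P i)) := fun i => sh_mem hz (hP i)
  obtain ⟨B, hB, hB'⟩ := sh_expand (z := z) (b - ∑ i, r i) A hA
  have h1 := hI z hz (Fin.cons (mz r * A) P) (cons_Dg (mzA_mem hr hA) hP)
  have h2 : (fun i : Fin (m + 1) => sh n z ((Fin.cons (mz r * A) P : Fin (m + 1) → Sn n) i)) =
      Fin.cons (sh n z (mz r * A)) (fun i => sh n z (P i)) := by
    funext i
    refine Fin.cases ?_ (fun j => ?_) i
    · simp only [Fin.cons_zero]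
    · simp only [Fin.cons_succ]
  rw [h2, ← MultilinearMap.curryLeft_apply, ← MultilinearMap.curryLeft_apply] at h1
  have h3 : sh n z (mz r * A) = mz r * A +
      ∑ j ∈ Finset.range (b - ∑ i, r i), (mz r * z ^ (j + 1)) * B j := by
    rw [map_mul, sh_ZZ_pow (mz_mem r), hB', mul_add, Finset.mul_sum]
    congr 1
    exact Finset.sum_congr rfl fun j _ => by rw [← mul_assoc]
  rw [h3, map_add, map_sum, add_apply, sum_apply] at h1
  rw [← h1]
  have h4 : ∑ j ∈ Finset.range (b - ∑ i, r i), (F.curryLeft ((mz r * z ^ (j + 1)) * B j))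
      (fun i => sh n z (P i)) = 0 := by
    apply Finset.sum_eq_zero
    intro j hj
    have hj' := Finset.mem_range.1 hj
    have hzj : z ^ (j + 1) ∈ ZZ n ^ (j + 1) := Submodule.pow_mem_pow _ hz _
    have hzj' := ZZ_pow_le (j + 1) hzj
    clear hzj
    have key : ∀ v ∈ Submodule.span ℂ {x : Sn n | ∃ r : Fin n → ℕ, ∑ i, r i = j + 1 ∧ x = mz r},
        (F.curryLeft ((mz r * v) * B j)) (fun i => sh n z (P i)) = 0 := by
      intro v hv
      induction hv using Submodule.span_induction with
      | mem x hx =>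
        obtain ⟨r', hr', rfl⟩ := hx
        rw [← mz_add]
        have h5 : ∑ i, (r + r') i = ∑ i, r i + (j + 1) := by
          simp only [Pi.add_apply]
          rw [Finset.sum_add_distrib, hr']
        apply hT r' _ (by omega) (B j) _ _ hP'
        · rintro rfl
          simp at hr'
        · have h6 : b - ∑ i, (r + r') i = b - ∑ i, r i - (j + 1) := by omega
          rw [h6]
          exact hB j hj'
      | zero => rw [mul_zero, zero_mul, map_zero]; rfl
      | add x y _ _ hx hy => rw [mul_add, add_mul, map_add, add_apply, hx, hy, add_zero]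
      | smul c x _ hx => rw [mul_smul_comm, smul_mul_assoc, map_smul, smul_apply, hx, smul_zero]
    exact key _ hzj'
  rw [h4, add_zero]

end Vale.Agent.P181.H72
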