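import Vale.Agent.P181.H72.WTorus
import Vale.Agent.P181.H921.WQ
import Vale.Agent.P181.H921.WStepA
import Vale.Agent.P181.H310.W6

/-!
P181, weighted tail slopes: the final theorem.
-/

set_option autoImplicit false

open scoped TensorProduct

namespace Vale.Agent.P181.H72

open MvPolynomial Vale.Agent.P181 Vale.Agent.P181.H536 Vale.Agent.P181.H280
  Vale.Agent.P181.H780 Vale.Agent.P181.TN Vale.Agent.P181.TW Vale.Agent.P181.H310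

variable {n : ℕ}

/-- the step -/
theorem stepW {s m b : ℕ} {w : Fin n → ℕ} (Lt : Finset (Fin n)) (hs : 2 ≤ s) (hmb : m ≤ b)
    (h2m : 2 * m ≤ b + 1) (hK1 : ∀ w' : Fin n → ℕ, w' ≤ w → KW n m (b + 1) w')
    (hK2 : ∀ e : Fin n → ℕ, e ≤ w → s ≤ ∑ i ∈ Ltᶜ, e i + s * ∑ i ∈ Lt, e i →
      KW n (m + 1) b (w - e))
    (hc : m + 1 ≤ ∑ i ∈ Lt, w i ∨
      ∃ i, (s - 1) * (b + 1) + 2 * m + 2 ≤ (∑ j ∈ Ltᶜ, w j) + w i) : KW n (m + 1) (b + 1) w := by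
  classical
  intro F hsy hI hH hF
  obtain ⟨hQ, hQ2⟩ := stage (by omega : 1 ≤ s) Lt (fun e he hse => hK2 e he (by
    have h1 : Ltᶜ = Finset.univ.filter (fun i => i ∉ Lt) := by
      ext i
      simp
    rwa [h1])) F hsy hI hH hF
  by_cases hL : m + 1 ≤ ∑ i ∈ Lt, w i
  · exact stepB Lt w hmb h2m F hsy hI hH hL hQ2 hK1
  · obtain ⟨i, hi⟩ := hc.resolve_left hL
    refine stepA hs hmb h2m F hsy hI hH hQ hK1 i (hi.trans ?_)
    apply Nat.add_le_add_right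
    exact Finset.sum_le_sum_of_subset (Finset.subset_univ _)

/-- **The weighted tail theorem.** Heavy rows `Ltᶜ`, light rows `Lt`. -/
theorem kwAll {N : ℕ} {Lt : Finset (Fin n)} {lam : Fin n → ℕ} {X : ℕ → ℕ} (hN : 1 ≤ N)
    (hX1 : N ≤ X 1)
    (hX : ∀ s, 1 ≤ s → (s + 1) * X s + SH Lt lam (X s + (s + 2) * N) ≤ s * X (s + 1))
    {a b s : ℕ} (ha : a ≤ N + 1) (hs : 1 ≤ s)
    (h : ∑ i ∈ Ltᶜ, lam i + s * ∑ i ∈ Lt, lam i + X s ≤ s * b) : KW n a b lam := by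
  refine recW hN hX1 hX (fun a b w => KW n a b w) (fun a b w h ha => treeW hN h ha)
    (fun b w => zeroW n b w) ?_ s hs a ha b lam le_rfl h
  intro s m b w hs _ _ hmb h2m hK1 hK2 hc
  refine stepW Lt hs hmb h2m hK1 hK2 ?_
  rcases hc with hc | ⟨_, _, i, _, hi⟩
  · exact Or.inl hc
  · exact Or.inr ⟨i, hi⟩

/-- **Weighted tail slopes.** -/
theorem wplus {N : ℕ} {Lt : Finset (Fin n)} (lam : Fin (n + 2) → ℕ) {X : ℕ → ℕ} (hN : 1 ≤ N)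
    (hX1 : N ≤ X 1)
    (hX : ∀ s, 1 ≤ s → (s + 1) * X s + SH Lt (fun i => lam i.succ.succ) (X s + (s + 2) * N) ≤
      s * X (s + 1))
    {a b s : ℕ} (ha : a ≤ N + 1) (hs : 1 ≤ s)
    (h : ∑ i ∈ Ltᶜ, lam i.succ.succ + s * ∑ i ∈ Lt, lam i.succ.succ + X s ≤ s * b) :
    (∀ x ∈ hwSpace lam (plethAct a b (n + 2)), foulkesHowe a b (Fin (n + 2) → ℂ) x = 0 → x = 0) ∧
      plethMult a b (n + 2) lam ≤ plethMult b a (n + 2) lam := by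
  have hK : KW n a b (fun i : Fin n => lam i.succ.succ) :=
    kwAll hN hX1 hX ha hs h
  exact ⟨fun x hx h0 => injOn_of_KW lam hK x hx h0, plethMult_of_KW lam hK⟩

/-- Two heavy rows: `λ₃ ≤ μ1`, `λ₄ ≤ μ2`, at most `b / 2` boxes below row four. -/
theorem wplus6 {a b μ1 μ2 : ℕ} (lam : Fin (n + 2) → ℕ) (ha : 2 ≤ a) (hμ : μ2 ≤ μ1)
    (h0 : ∀ i : Fin n, (i : ℕ) = 0 → lam i.succ.succ ≤ μ1)
    (h1 : ∀ i : Fin n, (i : ℕ) = 1 → lam i.succ.succ ≤ μ2)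
    (hL : 2 * ∑ i ∈ lt2 n, lam i.succ.succ ≤ b)
    (hC : 4096 * 18 ^ 6 * ((a - 1) ^ 2 * (μ1 + (a - 1)) ^ 3 * (μ2 + (a - 1))) ≤ b ^ 6) :
    (∀ x ∈ hwSpace lam (plethAct a b (n + 2)), foulkesHowe a b (Fin (n + 2) → ℂ) x = 0 → x = 0) ∧
      plethMult a b (n + 2) lam ≤ plethMult b a (n + 2) lam := by
  obtain ⟨s, hs, h⟩ := w6 (n := n) (N := a - 1) (b := b) (μ1 := μ1) (μ2 := μ2)
    (lam := fun i => lam i.succ.succ) (by omega) hμ h0 h1 hL hC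
  exact wplus (N := a - 1) (Lt := lt2 n) lam (by omega) (XX_one _ _ _).ge
    (fun s hs => XX_rec _ _ _ hs) (by omega) hs h

end Vale.Agent.P181.H72
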