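import Vale.Agent.P181.H921.WDefs
import Vale.Agent.P181.R2.H866.NTStep
import Vale.Agent.P181.R2.H940.NDescent
import Vale.Agent.P181.R2.H240.NLemmaI

/-!
P181, weighted tail slopes: the light direction. Blocks of the last variables.
-/

set_option autoImplicit false

open MvPolynomial

namespace Vale.Agent.P181.H72

open Vale.Agent.P181 Vale.Agent.P181.H536 Vale.Agent.P181.H280 Vale.Agent.P181.TN
  Vale.Agent.P181.TW Vale.Agent.P181.R2.H866

variable {n : ℕ}

/-- The span of the last variables with index in `S`. -/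
noncomputable def ZS (S : Finset (Fin n)) : Submodule ℂ (Sn n) :=
  Submodule.span ℂ {x | ∃ i ∈ S, x = (X i.succ.succ : Sn n)}

/-- The first two variables and the last variables with index outside `L`. -/
noncomputable def UL (L : Finset (Fin n)) : Submodule ℂ (Sn n) := U2 n ⊔ ZS Lᶜ

lemma ZS_le (S : Finset (Fin n)) : ZS S ≤ ZZ n := by
  rw [ZS, Submodule.span_le]
  rintro _ ⟨i, _, rfl⟩
  exact Submodule.subset_span ⟨i, rfl⟩

lemma ZZ_le_sup (L : Finset (Fin n)) : ZZ n ≤ ZS Lᶜ ⊔ ZS L := by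
  classical
  rw [ZZ, Submodule.span_le]
  rintro _ ⟨i, rfl⟩
  by_cases hi : i ∈ L
  · exact Submodule.mem_sup_right (Submodule.subset_span ⟨i, hi, rfl⟩)
  · exact Submodule.mem_sup_left (Submodule.subset_span ⟨i, Finset.mem_compl.2 hi, rfl⟩)

lemma UL_le (L : Finset (Fin n)) : UL L ≤ linS (n + 2) :=
  sup_le U2_le ((ZS_le _).trans ZZ_le)

lemma U2_le_UL (L : Finset (Fin n)) : U2 n ≤ UL L := le_sup_left

lemma ZS_le_UL (L : Finset (Fin n)) : ZS Lᶜ ≤ UL L := le_sup_right

lemma ln_mem_UL (L : Finset (Fin n)) (x : ℂ) : ln n x ∈ UL L := U2_le_UL L (ln_mem_U2 x)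

lemma ZS_exists {S : Finset (Fin n)} {z : Sn n} (hz : z ∈ ZS S) :
    ∃ c : Fin n → ℂ, (∀ i, i ∉ S → c i = 0) ∧ z = ∑ i, c i • (X i.succ.succ : Sn n) := by
  classical
  rw [ZS] at hz
  induction hz using Submodule.span_induction with
  | mem x hx =>
    obtain ⟨i, hi, rfl⟩ := hx
    refine ⟨fun j => if j = i then 1 else 0, ?_, ?_⟩
    · intro j hj
      have hji : j ≠ i := by
        rintro rfl
        exact hj hi
      simp only [if_neg hji]
    · simp
  | zero => exact ⟨fun _ => 0, fun _ _ => rfl, by simp⟩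
  | add x y _ _ hx hy =>
    obtain ⟨c, hc, rfl⟩ := hx
    obtain ⟨d, hd, rfl⟩ := hy
    refine ⟨fun i => c i + d i, fun i hi => by simp only [hc i hi, hd i hi, add_zero], ?_⟩
    rw [← Finset.sum_add_distrib]
    exact Finset.sum_congr rfl fun i _ => by rw [add_smul]
  | smul r x _ hx =>
    obtain ⟨c, hc, rfl⟩ := hx
    refine ⟨fun i => r * c i, fun i hi => by simp only [hc i hi, mul_zero], ?_⟩
    rw [Finset.smul_sum]
    exact Finset.sum_congr rfl fun i _ => by rw [smul_smul]

/-- Monomials supported in `S` span the powers of `ZS S`. -/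
lemma ZS_pow_le (S : Finset (Fin n)) (k : ℕ) : ZS S ^ k ≤
    Submodule.span ℂ {x : Sn n | ∃ r : Fin n → ℕ, (∀ i, i ∉ S → r i = 0) ∧ ∑ i, r i = k ∧
      x = mz r} := by
  classical
  induction k with
  | zero =>
    rw [pow_zero, Submodule.one_le]
    refine Submodule.subset_span ⟨fun _ => 0, fun _ _ => rfl, by simp, ?_⟩
    simp [mz]
  | succ k ih =>
    rw [pow_succ]
    have h0 : ZS S ^ k * ZS S ≤
        Submodule.span ℂ {x : Sn n | ∃ r : Fin n → ℕ, (∀ i, i ∉ S → r i = 0) ∧ ∑ i, r i = k ∧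
          x = mz r} * ZS S := by
      rw [Submodule.mul_le]
      intro p hp q hq
      exact Submodule.mul_mem_mul (ih hp) hq
    refine h0.trans ?_
    rw [ZS, Submodule.span_mul_span, Submodule.span_le]
    rintro _ ⟨x, ⟨r, hr0, hr, rfl⟩, y, ⟨i, hi, rfl⟩, rfl⟩
    refine Submodule.subset_span ⟨fun j => r j + if j = i then 1 else 0, ?_, ?_, ?_⟩
    · intro j hj
      have hji : j ≠ i := by
        rintro rfl
        exact hj hi
      simp only [hr0 j hj, if_neg hji, add_zero]
    · rw [Finset.sum_add_distrib, hr]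
      simp
    · change mz r * X i.succ.succ = _
      rw [mz, mz]
      simp only [pow_add, Finset.prod_mul_distrib]
      congr 1
      rw [Finset.prod_eq_single i]
      · simp
      · intro j _ hj
        rw [if_neg hj, pow_zero]
      · intro h
        exact absurd (Finset.mem_univ i) h

lemma mz_add (r r' : Fin n → ℕ) : mz (r + r') = mz r * mz r' := by
  rw [mz, mz, mz, ← Finset.prod_mul_distrib]
  exact Finset.prod_congr rfl fun i _ => by rw [Pi.add_apply, pow_add]

lemma mz_mem_ZS (S : Finset (Fin n)) (r : Fin n → ℕ) (hr : ∀ i, i ∉ S → r i = 0) :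
    mz r ∈ ZS S ^ (∑ i ∈ S, r i) := by
  classical
  have h1 : mz r = ∏ i ∈ S, (X i.succ.succ : Sn n) ^ r i := by
    rw [mz]
    symm
    apply Finset.prod_subset (Finset.subset_univ S)
    intro i _ hi
    rw [hr i hi, pow_zero]
  rw [h1]
  have h2 : ∀ T : Finset (Fin n), T ⊆ S →
      ∏ i ∈ T, (X i.succ.succ : Sn n) ^ r i ∈ ZS S ^ (∑ i ∈ T, r i) := by
    intro T
    induction T using Finset.induction_on with
    | empty =>
      intro _
      rw [Finset.prod_empty, Finset.sum_empty, pow_zero]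
      exact Submodule.one_le.1 le_rfl
    | insert i T hi ih =>
      intro hT
      rw [Finset.prod_insert hi, Finset.sum_insert hi, pow_add]
      refine Submodule.mul_mem_mul (Submodule.pow_mem_pow _ ?_ _)
        (ih fun j hj => hT (Finset.mem_insert_of_mem hj))
      exact Submodule.subset_span ⟨i, hT (Finset.mem_insert_self _ _), rfl⟩
  exact h2 S (Finset.Subset.refl _)

/-- The part of a multi-index in `S`. -/
def rs (S : Finset (Fin n)) (r : Fin n → ℕ) : Fin n → ℕ := by
  classical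
  exact fun i => if i ∈ S then r i else 0

lemma rs_add (S : Finset (Fin n)) (r : Fin n → ℕ) : rs S r + rs Sᶜ r = r := by
  classical
  funext i
  rw [Pi.add_apply, rs, rs]
  by_cases hi : i ∈ S
  · rw [if_pos hi, if_neg (fun h => (Finset.mem_compl.1 h) hi), add_zero]
  · rw [if_neg hi, if_pos (Finset.mem_compl.2 hi), zero_add]

lemma sum_rs (S : Finset (Fin n)) (r : Fin n → ℕ) : ∑ i ∈ S, rs S r i = ∑ i ∈ S, r i := by
  classical
  apply Finset.sum_congr rfl
  intro i hi
  rw [rs, if_pos hi]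

lemma sum_split (S : Finset (Fin n)) (r : Fin n → ℕ) :
    ∑ i, r i = ∑ i ∈ S, r i + ∑ i ∈ Sᶜ, r i := by
  classical
  rw [Finset.sum_add_sum_compl]

lemma mz_split (S : Finset (Fin n)) (r : Fin n → ℕ) : mz r = mz (rs S r) * mz (rs Sᶜ r) := by
  rw [← mz_add, rs_add]

lemma mz_rs_mem (S : Finset (Fin n)) (r : Fin n → ℕ) :
    mz (rs S r) ∈ ZS S ^ (∑ i ∈ S, r i) := by
  classical
  have h := mz_mem_ZS S (rs S r) (fun i hi => by rw [rs, if_neg hi])
  rwa [sum_rs] at h

/-- The scaling of the variables in `L`. -/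
noncomputable def cL (L : Finset (Fin n)) (t : ℂ) : Fin n → ℂ := by
  classical
  exact fun i => if i ∈ L then t else 1

lemma cL_ne (L : Finset (Fin n)) {t : ℂ} (ht : t ≠ 0) (i : Fin n) : cL L t i ≠ 0 := by
  classical
  rw [cL]
  split_ifs
  · exact ht
  · exact one_ne_zero

lemma prod_cL (L : Finset (Fin n)) (t : ℂ) (w : Fin n → ℕ) :
    ∏ i, cL L t i ^ w i = t ^ (∑ i ∈ L, w i) := by
  classical
  rw [← Finset.prod_pow_eq_pow_sum, ← Finset.prod_mul_prod_compl L]
  have h1 : ∏ i ∈ Lᶜ, cL L t i ^ w i = 1 := by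
    apply Finset.prod_eq_one
    intro i hi
    rw [cL, if_neg (Finset.mem_compl.1 hi), one_pow]
  rw [h1, mul_one]
  apply Finset.prod_congr rfl
  intro i hi
  rw [cL, if_pos hi]

lemma scw_cL_UL (L : Finset (Fin n)) (t : ℂ) {u : Sn n} (hu : u ∈ UL L) :
    scw (cL L t) u = u := by
  classical
  rw [UL, Submodule.mem_sup] at hu
  obtain ⟨v, hv, z, hz, rfl⟩ := hu
  rw [map_add, scw_U hv]
  congr 1
  rw [ZS] at hz
  induction hz using Submodule.span_induction with
  | mem x hx =>
    obtain ⟨i, hi, rfl⟩ := hx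
    rw [scw_succ, cL, if_neg (Finset.mem_compl.1 hi), one_smul]
  | zero => rw [map_zero]
  | add x y _ _ hx hy => rw [map_add, hx, hy]
  | smul r x _ hx => rw [map_smul, hx]

lemma scw_cL_UL_pow (L : Finset (Fin n)) (t : ℂ) {d : ℕ} {u : Sn n} (hu : u ∈ UL L ^ d) :
    scw (cL L t) u = u := by
  induction d generalizing u with
  | zero =>
    rw [pow_zero, Submodule.mem_one] at hu
    obtain ⟨r, rfl⟩ := hu
    exact AlgHom.commutes _ _
  | succ d ih =>
    rw [pow_succ] at hu
    induction hu using Submodule.mul_induction_on' with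
    | mem_mul_mem x hx y hy => rw [map_mul, ih hx, scw_cL_UL L t hy]
    | add x _ y _ hx hy => rw [map_add, hx, hy]

lemma scw_cL_ZS (L : Finset (Fin n)) (t : ℂ) {z : Sn n} (hz : z ∈ ZS L) :
    scw (cL L t) z = t • z := by
  classical
  rw [ZS] at hz
  induction hz using Submodule.span_induction with
  | mem x hx =>
    obtain ⟨i, hi, rfl⟩ := hx
    rw [scw_succ, cL, if_pos hi]
  | zero => rw [map_zero, smul_zero]
  | add x y _ _ hx hy => rw [map_add, hx, hy, smul_add]
  | smul r x _ hx => rw [map_smul, hx, smul_comm]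

lemma scw_cL_ZS_pow (L : Finset (Fin n)) (t : ℂ) {k : ℕ} {z : Sn n} (hz : z ∈ ZS L ^ k) :
    scw (cL L t) z = t ^ k • z := by
  induction k generalizing z with
  | zero =>
    rw [pow_zero, Submodule.mem_one] at hz
    obtain ⟨r, rfl⟩ := hz
    rw [pow_zero, one_smul]
    exact AlgHom.commutes _ _
  | succ k ih =>
    rw [pow_succ] at hz
    induction hz using Submodule.mul_induction_on' with
    | mem_mul_mem x hx y hy =>
      rw [map_mul, ih hx, scw_cL_ZS L t hy, smul_mul_assoc, mul_smul_comm, smul_smul, pow_succ]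
    | add x _ y _ hx hy => rw [map_add, hx, hy, smul_add]

end Vale.Agent.P181.H72
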